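import Vale.Agent.P202.SquareZero

/-!
Lengths and multiplicities.
-/

namespace Vale.Agent.P202

open IsLocalRing Filter Topology
open scoped TensorProduct

/-- `e` is the Hilbert-Samuel multiplicity of the local ring `A` in dimension `d`: the limit of
`d! * length (A / a ^ N) / N ^ d`. -/
def IsMultiplicity (A : Type*) [CommRing A] [IsLocalRing A] (d : ℕ) (e : ℝ) : Prop :=
  Tendsto (fun N : ℕ => (d.factorial : ℝ) *
    ((Module.length A (A ⧸ maximalIdeal A ^ N)).toNat : ℝ) / (N : ℝ) ^ d) atTop (𝓝 e)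

theorem length_quotient_ne_top {A : Type*} [CommRing A] [IsLocalRing A] [IsNoetherianRing A]
    (I : Ideal A) (k : ℕ) (hI : maximalIdeal A ^ k ≤ I) : Module.length A (A ⧸ I) ≠ ⊤ := by
  have h0 : Ring.KrullDimLE 0 (A ⧸ I) := Ring.krullDimLE_zero_iff.2 fun P hP => by
    have hP' : (P.comap (Ideal.Quotient.mk I)).IsPrime := hP.comap _
    have h1 : I ≤ P.comap (Ideal.Quotient.mk I) := fun x hx => by
      simp [Ideal.mem_comap, Ideal.Quotient.eq_zero_iff_mem.2 hx]
    have h2 : maximalIdeal A ≤ P.comap (Ideal.Quotient.mk I) :=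
      hP'.le_of_pow_le (hI.trans h1)
    have h3 : (P.comap (Ideal.Quotient.mk I)).IsMaximal := by
      rw [← (IsLocalRing.maximalIdeal.isMaximal A).eq_of_le hP'.ne_top h2]
      exact IsLocalRing.maximalIdeal.isMaximal A
    exact Ideal.isMaximal_of_isIntegral_of_isMaximal_comap (R := A) P h3
  have := IsNoetherianRing.isArtinianRing_of_krullDimLE_zero (R := A ⧸ I)
  rw [Module.length_eq_of_surjective (S := A) (R := A ⧸ I) (M := A ⧸ I)
    Ideal.Quotient.mk_surjective]
  exact Module.length_ne_top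

theorem length_quotient_mono {A : Type*} [CommRing A] {I K : Ideal A} (h : I ≤ K) :
    Module.length A (A ⧸ K) ≤ Module.length A (A ⧸ I) :=
  Module.length_le_of_surjective (Submodule.factor h) (Submodule.factor_surjective h)

variable {R S : Type*} [CommRing R] [CommRing S] [IsLocalRing R] [IsLocalRing S]
  [IsNoetherianRing R] [IsNoetherianRing S] [Algebra R S] [IsLocalHom (algebraMap R S)]
  [Module.Flat R S]

omit [IsNoetherianRing R] [IsNoetherianRing S] in
theorem length_map (N : ℕ) :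
    Module.length S (S ⧸ ((maximalIdeal R).map (algebraMap R S)) ^ N) =
      Module.length R (R ⧸ maximalIdeal R ^ N) *
        Module.length S (S ⧸ (maximalIdeal R).map (algebraMap R S)) := by
  rw [← Ideal.map_pow, ← IsLocalRing.length_baseChange]
  exact (Algebra.TensorProduct.quotIdealMapEquivTensorQuot S
    (maximalIdeal R ^ N)).toLinearEquiv.length_eq

omit [IsNoetherianRing S] in
theorem pow_succ_le (h2 : maximalIdeal S ^ 2 ≤ (maximalIdeal R).map (algebraMap R S))
    (hg : maximalIdeal S = (maximalIdeal R).map (algebraMap R S) ∨ ∀ z : S,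
      maximalIdeal S ≠ Ideal.span {z} ⊔ (maximalIdeal R).map (algebraMap R S)) (N : ℕ) :
    maximalIdeal S ^ (N + 1) ≤
      ((maximalIdeal R).map (algebraMap R S)) ^ N * maximalIdeal S := by
  induction N with
  | zero => simp
  | succ N ih =>
    rw [pow_succ (maximalIdeal S) (N + 1)]
    refine le_trans (mul_le_mul_left ih _) ?_
    rw [pow_succ ((maximalIdeal R).map (algebraMap R S)) N, mul_assoc, mul_assoc]
    exact mul_le_mul_right ((pow_two (maximalIdeal S)).ge.trans (sq_le_mul h2 hg)) _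

theorem dim_eq (h2 : maximalIdeal S ^ 2 ≤ (maximalIdeal R).map (algebraMap R S)) :
    ringKrullDim S = ringKrullDim R := by
  set J := (maximalIdeal R).map (algebraMap R S) with hJ
  have hle : J ≤ maximalIdeal S :=
    IsLocalRing.le_maximalIdeal (IsLocalRing.map_maximalIdeal_lt_top (algebraMap R S)).ne
  have : (maximalIdeal S).LiesOver (maximalIdeal R) :=
    ⟨((IsLocalRing.maximalIdeal.isMaximal R).eq_of_le
      ((IsLocalRing.maximalIdeal.isMaximal S).isPrime.under R).ne_top
      (Ideal.map_le_iff_le_comap.1 hle))⟩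
  have h3 := Ideal.height_eq_height_add_of_liesOver_of_hasGoingDown (maximalIdeal R)
    (maximalIdeal S)
  have : ((maximalIdeal S).map (Ideal.Quotient.mk J)).IsPrime :=
    Ideal.map_isPrime_of_surjective Ideal.Quotient.mk_surjective
      (by rw [Ideal.mk_ker]; exact hle)
  have h4 : ((maximalIdeal S).map (Ideal.Quotient.mk J)).height = 0 := by
    rw [Ideal.height_eq_zero_iff, minimalPrimes_eq_minimals]
    refine ⟨inferInstance, fun Q hQ _ => ?_⟩
    refine Ideal.map_le_iff_le_comap.2 ((hQ.comap _).le_of_pow_le (n := 2) (h2.trans ?_))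
    intro x hx
    simp [Ideal.mem_comap, Ideal.Quotient.eq_zero_iff_mem.2 hx]
  rw [h4, add_zero] at h3
  rw [← IsLocalRing.maximalIdeal_height_eq_ringKrullDim,
    ← IsLocalRing.maximalIdeal_height_eq_ringKrullDim, h3]

theorem lech_squareZero (h2 : maximalIdeal S ^ 2 ≤ (maximalIdeal R).map (algebraMap R S))
    (hg : maximalIdeal S = (maximalIdeal R).map (algebraMap R S) ∨ ∀ z : S,
      maximalIdeal S ≠ Ideal.span {z} ⊔ (maximalIdeal R).map (algebraMap R S))
    (d : ℕ) (e : ℝ) (he : IsMultiplicity R d e) :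
    IsMultiplicity S d
      (((Module.length S (S ⧸ (maximalIdeal R).map (algebraMap R S))).toNat : ℝ) * e) ∧
    e ≤ ((Module.length S (S ⧸ (maximalIdeal R).map (algebraMap R S))).toNat : ℝ) * e := by
  set J := (maximalIdeal R).map (algebraMap R S) with hJ
  set L := Module.length S (S ⧸ J) with hL
  have hle : J ≤ maximalIdeal S :=
    IsLocalRing.le_maximalIdeal (IsLocalRing.map_maximalIdeal_lt_top (algebraMap R S)).ne
  have hfin : ∀ N, Module.length S (S ⧸ maximalIdeal S ^ N) ≠ ⊤ := fun N =>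
    length_quotient_ne_top _ N le_rfl
  have hLfin : L ≠ ⊤ := length_quotient_ne_top J 2 h2
  have hrfin : ∀ N, Module.length R (R ⧸ maximalIdeal R ^ N) ≠ ⊤ := fun N =>
    length_quotient_ne_top _ N le_rfl
  let r : ℕ → ℝ := fun N => ((Module.length R (R ⧸ maximalIdeal R ^ N)).toNat : ℝ)
  let q : ℕ → ℝ := fun N => ((Module.length S (S ⧸ maximalIdeal S ^ N)).toNat : ℝ)
  have hup : ∀ N, q N ≤ L.toNat * r N := fun N => by
    have h1 : Module.length S (S ⧸ maximalIdeal S ^ N) ≤
        Module.length R (R ⧸ maximalIdeal R ^ N) * L := by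
      rw [hL, hJ, ← length_map]
      exact length_quotient_mono (Ideal.pow_right_mono hle N)
    have h3 := ENat.toNat_le_toNat h1 (WithTop.mul_ne_top (hrfin N) hLfin)
    rw [ENat.toNat_mul, mul_comm] at h3
    simp only [q, r]
    exact_mod_cast h3
  have hlow : ∀ N, (L.toNat : ℝ) * r N ≤ q (N + 1) := fun N => by
    have h1 : Module.length R (R ⧸ maximalIdeal R ^ N) * L ≤
        Module.length S (S ⧸ maximalIdeal S ^ (N + 1)) := by
      rw [hL, hJ, ← length_map]
      exact length_quotient_mono ((pow_succ_le h2 hg N).trans Ideal.mul_le_left)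
    have h3 := ENat.toNat_le_toNat h1 (hfin _)
    rw [ENat.toNat_mul, mul_comm] at h3
    simp only [q, r]
    exact_mod_cast h3
  have hLpos : (1 : ℝ) ≤ L.toNat := by
    have : L.toNat ≠ 0 := by
      rw [Ne, ENat.toNat_eq_zero]
      rintro (h | h)
      · rw [hL, Module.length_eq_zero_iff, Ideal.Quotient.subsingleton_iff] at h
        exact (IsLocalRing.map_maximalIdeal_lt_top (algebraMap R S)).ne h
      · exact hLfin h
    exact_mod_cast Nat.one_le_iff_ne_zero.2 this
  have he' : Tendsto (fun N : ℕ => (d.factorial : ℝ) * r N / (N : ℝ) ^ d) atTop (𝓝 e) := he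
  have he0 : 0 ≤ e := ge_of_tendsto' he' fun N => by positivity
  refine ⟨?_, le_mul_of_one_le_left he0 hLpos⟩
  show Tendsto (fun N : ℕ => (d.factorial : ℝ) * q N / (N : ℝ) ^ d) atTop (𝓝 _)
  have hratio : Tendsto (fun N : ℕ => ((N : ℝ) / (N + 1)) ^ d) atTop (𝓝 1) := by
    simpa using (tendsto_natCast_div_add_atTop (1 : ℝ)).pow d
  have hlo : Tendsto (fun N : ℕ => (L.toNat : ℝ) *
      (((d.factorial : ℝ) * r N / (N : ℝ) ^ d) * ((N : ℝ) / (N + 1)) ^ d)) atTop
      (𝓝 ((L.toNat : ℝ) * e)) := by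
    simpa using (he'.mul hratio).const_mul (L.toNat : ℝ)
  refine tendsto_of_tendsto_of_tendsto_of_le_of_le' (g := fun M : ℕ => (L.toNat : ℝ) *
      (((d.factorial : ℝ) * r (M - 1) / ((M - 1 : ℕ) : ℝ) ^ d) *
        (((M - 1 : ℕ) : ℝ) / ((M - 1 : ℕ) + 1)) ^ d))
    (hlo.comp (tendsto_sub_atTop_nat 1)) (he'.const_mul (L.toNat : ℝ)) ?_ ?_
  · refine eventually_atTop.2 ⟨2, fun M hM => ?_⟩
    obtain ⟨N, rfl⟩ : ∃ N, M = N + 2 := ⟨M - 2, by omega⟩
    simp only [show N + 2 - 1 = N + 1 from rfl]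
    have hb : ((N + 2 : ℕ) : ℝ) = ((N + 1 : ℕ) : ℝ) + 1 := by push_cast; ring
    rw [hb, div_pow]
    have hc : (0 : ℝ) < ((N + 1 : ℕ) : ℝ) ^ d := by positivity
    field_simp
    have := hlow (N + 1)
    nlinarith [(Nat.cast_pos (α := ℝ)).2 d.factorial_pos, this]
  · refine Eventually.of_forall fun M => ?_
    rw [← mul_div_assoc, mul_left_comm]
    gcongr
    exact hup M

end Vale.Agent.P202
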