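import Mathlib

/-!
Monomial filtrations: giving weights `w` to generators of an ideal `I` divides the colength of
the powers of `I` by at most the product of the weights.
-/

namespace Vale.Agent.P202

open Finset

variable {S : Type*} [CommRing S] {n : ℕ} (y : Fin n → S) (w : Fin n → ℕ)

/-- The monomial with exponent `α`. -/
def mon (α : Fin n → ℕ) : S := ∏ i, y i ^ α i

/-- Weight of an exponent. -/
def wt (α : Fin n → ℕ) : ℕ := ∑ i, w i * α i

/-- Ideal of monomials of weight at least `K`. -/
def weightIdeal (K : ℕ) : Ideal S := Ideal.span (mon y '' {α | K ≤ wt w α})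

/-- Exponents ordered by weight, then lexicographically. -/
def key (α : Fin n → ℕ) : ℕ ×ₗ Lex (Fin n → ℕ) := toLex (wt w α, toLex α)

theorem mon_add (α β : Fin n → ℕ) : mon y (α + β) = mon y α * mon y β := by
  simp [mon, pow_add, Finset.prod_mul_distrib]

theorem mon_zero : mon y 0 = 1 := by simp [mon]

theorem mon_single (i : Fin n) : mon y (Pi.single i 1) = y i := by
  rw [mon, Finset.prod_eq_single i (fun j _ hj => by simp [hj]) (by simp)]
  simp

theorem wt_add (α β : Fin n → ℕ) : wt w (α + β) = wt w α + wt w β := by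
  simp [wt, mul_add, Finset.sum_add_distrib]

theorem wt_single (i : Fin n) : wt w (Pi.single i 1) = w i := by
  rw [wt, Finset.sum_eq_single i (fun j _ hj => by simp [hj]) (by simp)]
  simp

theorem key_injective : Function.Injective (key w) := fun a b h => by
  have := congrArg (fun x => (ofLex x).2) h
  simpa [key] using this

theorem key_add_lt {α β : Fin n → ℕ} (γ : Fin n → ℕ) (h : key w α < key w β) :
    key w (α + γ) < key w (β + γ) := by
  simp only [key, Prod.Lex.toLex_lt_toLex, wt_add] at h ⊢
  rcases h with h | ⟨h1, h2⟩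
  · exact Or.inl (by omega)
  · exact Or.inr ⟨by omega, add_lt_add_left h2 (toLex γ)⟩

theorem wt_le_of_key_lt {α β : Fin n → ℕ} (h : key w α < key w β) : wt w α ≤ wt w β := by
  simp only [key, Prod.Lex.toLex_lt_toLex] at h
  rcases h with h | ⟨h, -⟩ <;> omega

theorem mon_mem_pow (α : Fin n → ℕ) :
    mon y α ∈ Ideal.span (Set.range y) ^ ∑ i, α i := by
  rw [← Finset.prod_pow_eq_pow_sum]
  refine Ideal.prod_mem_prod fun i _ => ?_
  exact Ideal.pow_mem_pow (Ideal.subset_span (Set.mem_range_self i)) (α i)

theorem pow_le_span_mon (K : ℕ) :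
    Ideal.span (Set.range y) ^ K ≤ Ideal.span (mon y '' {α | K ≤ ∑ i, α i}) := by
  induction K with
  | zero =>
    intro x _
    have h1 : (1 : S) ∈ Ideal.span (mon y '' {α | 0 ≤ ∑ i, α i}) :=
      Ideal.subset_span ⟨0, by simp, mon_zero y⟩
    have h2 := (Ideal.eq_top_iff_one _).2 h1
    rw [h2]
    exact Submodule.mem_top
  | succ K ih =>
    rw [pow_succ]
    refine (Ideal.mul_mono_left ih).trans ?_
    rw [Ideal.span_mul_span', Ideal.span_le]
    rintro _ ⟨_, ⟨α, hα, rfl⟩, _, ⟨i, rfl⟩, rfl⟩
    refine Ideal.subset_span ⟨α + Pi.single i 1, ?_, by rw [mon_add, mon_single]⟩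
    have h2 : K ≤ ∑ j, α j := hα
    show K + 1 ≤ ∑ j, (α + Pi.single i 1 : Fin n → ℕ) j
    simp [Finset.sum_add_distrib]
    omega

theorem span_le_weightIdeal {w : Fin n → ℕ} (hw : ∀ i, 1 ≤ w i) (K : ℕ) :
    Ideal.span (Set.range y) ^ K ≤ weightIdeal y w K := by
  refine (pow_le_span_mon y K).trans (Ideal.span_mono (Set.image_mono fun α hα => ?_))
  have h1 : K ≤ ∑ i, α i := hα
  have h2 : ∑ i, α i ≤ wt w α :=
    Finset.sum_le_sum fun i _ => Nat.le_mul_of_pos_left _ (hw i)
  show K ≤ wt w α
  omega

theorem weightIdeal_anti {K K' : ℕ} (h : K ≤ K') : weightIdeal y w K' ≤ weightIdeal y w K :=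
  Ideal.span_mono (Set.image_mono fun _ hα => le_trans h hα)

theorem weightIdeal_zero : weightIdeal y w 0 = ⊤ :=
  (Ideal.eq_top_iff_one _).2 (Ideal.subset_span ⟨0, by simp, mon_zero y⟩)

theorem span_singleton_mul_weightIdeal (i : Fin n) (K : ℕ) :
    Ideal.span {y i} * weightIdeal y w K ≤ weightIdeal y w (w i + K) := by
  rw [weightIdeal, Ideal.span_mul_span', Ideal.span_le]
  rintro _ ⟨x, hx, _, ⟨α, hα, rfl⟩, rfl⟩
  rw [Set.mem_singleton_iff] at hx
  subst hx
  refine Ideal.subset_span ⟨Pi.single i 1 + α, ?_, by rw [mon_add, mon_single]⟩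
  have h2 : K ≤ wt w α := hα
  show w i + K ≤ wt w (Pi.single i 1 + α)
  rw [wt_add, wt_single]
  omega

theorem span_mul_weightIdeal {w : Fin n → ℕ} (hw : ∀ i, 1 ≤ w i) (K : ℕ) :
    Ideal.span (Set.range y) * weightIdeal y w K ≤ weightIdeal y w (K + 1) := by
  rw [weightIdeal, Ideal.span_mul_span', Ideal.span_le]
  rintro _ ⟨_, ⟨i, rfl⟩, _, ⟨α, hα, rfl⟩, rfl⟩
  refine Ideal.subset_span ⟨Pi.single i 1 + α, ?_, by rw [mon_add, mon_single]⟩
  have h2 : K ≤ wt w α := hα
  show K + 1 ≤ wt w (Pi.single i 1 + α)
  have := hw i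
  rw [wt_add, wt_single]
  omega

/-- The length of `S/P` splits along a single element. -/
theorem length_quotient_step (P : Ideal S) (x : S) :
    Module.length S (S ⧸ P) = Module.length S (S ⧸ (P ⊔ Ideal.span {x})) +
      Module.length S (S ⧸ Submodule.comap (LinearMap.mulRight S x) P) := by
  rw [add_comm]
  refine Module.length_eq_add_of_exact (Submodule.mapQ _ P (LinearMap.mulRight S x) le_rfl)
    (Submodule.factor le_sup_left) ?_ (Submodule.factor_surjective _) ?_
  · refine LinearMap.ker_eq_bot.1 ?_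
    rw [Submodule.ker_mapQ]
    simp
  · intro z
    obtain ⟨z, rfl⟩ := Submodule.Quotient.mk_surjective _ z
    rw [Submodule.factor, Submodule.mapQ_apply, LinearMap.id_apply, Submodule.Quotient.mk_eq_zero]
    constructor
    · intro hz
      obtain ⟨p, hp, q, hq, rfl⟩ := Submodule.mem_sup.1 hz
      obtain ⟨r, rfl⟩ := Ideal.mem_span_singleton'.1 hq
      refine ⟨Submodule.Quotient.mk r, ?_⟩
      rw [Submodule.mapQ_apply, Submodule.Quotient.eq]
      have : r * x - (p + r * x) = -p := by ring
      simpa [this] using P.neg_mem hp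
    · rintro ⟨r, hr⟩
      obtain ⟨r, rfl⟩ := Submodule.Quotient.mk_surjective _ r
      rw [Submodule.mapQ_apply, Submodule.Quotient.eq] at hr
      have : z = r * x - (r * x - z) := by ring
      rw [this]
      exact sub_mem (Ideal.mem_sup_right (Ideal.mem_span_singleton'.2 ⟨r, rfl⟩))
        (Ideal.mem_sup_left (by simpa using hr))

/-- The exponents of degree below `K`. -/
def box (n K : ℕ) : Finset (Fin n → ℕ) :=
  (Fintype.piFinset fun _ => Finset.range K).filter fun α => ∑ i, α i < K

theorem mem_box {K : ℕ} {α : Fin n → ℕ} : α ∈ box n K ↔ ∑ i, α i < K := by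
  constructor
  · exact fun h => (Finset.mem_filter.1 h).2
  · intro h
    refine Finset.mem_filter.2 ⟨Fintype.mem_piFinset.2 fun i => Finset.mem_range.2 ?_, h⟩
    exact lt_of_le_of_lt (Finset.single_le_sum (fun j _ => Nat.zero_le (α j))
      (Finset.mem_univ i)) h

/-- Everything above `α`. -/
def above (K : ℕ) (α : Fin n → ℕ) : Ideal S :=
  Ideal.span (Set.range y) ^ K ⊔
    Ideal.span (mon y '' {β | β ∈ box n K ∧ key w α < key w β})

/-- Length of the graded piece at `α`. -/
noncomputable def piece (K : ℕ) (α : Fin n → ℕ) : ℕ∞ :=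
  Module.length S (S ⧸ Submodule.comap (LinearMap.mulRight S (mon y α)) (above y w K α))

theorem piece_add_le (K : ℕ) (α γ : Fin n → ℕ) : piece y w K (α + γ) ≤ piece y w K α := by
  refine Module.length_le_of_surjective (Submodule.factor ?_) (Submodule.factor_surjective ?_)
  all_goals
    intro r hr
    have hle : above y w K α ≤
        Submodule.comap (LinearMap.mulRight S (mon y γ)) (above y w K (α + γ)) := by
      refine sup_le (fun z hz => Ideal.mem_sup_left (Ideal.mul_mem_right _ _ hz))
        (Ideal.span_le.2 ?_)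
      rintro _ ⟨β, ⟨-, hβ⟩, rfl⟩
      show mon y β * mon y γ ∈ above y w K (α + γ)
      rw [← mon_add]
      by_cases hb : β + γ ∈ box n K
      · exact Ideal.mem_sup_right (Ideal.subset_span ⟨_, ⟨hb, key_add_lt w γ hβ⟩, rfl⟩)
      · rw [mem_box, not_lt] at hb
        exact Ideal.mem_sup_left (Ideal.pow_le_pow_right hb (mon_mem_pow y _))
    have h2 := hle hr
    simp only [Submodule.mem_comap, LinearMap.mulRight_apply, mon_add] at h2 ⊢
    rwa [← mul_assoc]

theorem sum_piece (K : ℕ) (U : Finset (Fin n → ℕ)) (hU : U ⊆ box n K)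
    (hup : ∀ α ∈ U, ∀ β ∈ box n K, key w α < key w β → β ∈ U) :
    Module.length S (S ⧸ (Ideal.span (Set.range y) ^ K ⊔ Ideal.span (mon y '' ↑U))) +
      ∑ α ∈ U, piece y w K α = Module.length S (S ⧸ Ideal.span (Set.range y) ^ K) := by
  classical
  induction U using Finset.induction_on_min_value (key w) with
  | empty => rw [Finset.coe_empty, Set.image_empty, Ideal.span_empty, sup_bot_eq, Finset.sum_empty,
      add_zero]
  | insert a s ha hmin ih =>
    have hs : ∀ α ∈ s, key w a < key w α := fun α hα =>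
      lt_of_le_of_ne (hmin α hα) fun h => ha (key_injective w h ▸ hα)
    have hset : {β | β ∈ box n K ∧ key w a < key w β} = (↑s : Set (Fin n → ℕ)) := by
      ext β
      constructor
      · rintro ⟨h1, h2⟩
        have := hup a (Finset.mem_insert_self _ _) β h1 h2
        rcases Finset.mem_insert.1 this with rfl | h3
        · exact absurd h2 (lt_irrefl _)
        · exact h3
      · exact fun h => ⟨hU (Finset.mem_insert_of_mem h), hs β h⟩
    have hup' : ∀ α ∈ s, ∀ β ∈ box n K, key w α < key w β → β ∈ s := by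
      intro α hα β hβ hlt
      have h1 : key w a < key w β := lt_trans (hs α hα) hlt
      have : β ∈ {β | β ∈ box n K ∧ key w a < key w β} := ⟨hβ, h1⟩
      rwa [hset, Finset.mem_coe] at this
    rw [← ih ((Finset.subset_insert _ _).trans hU) hup', Finset.sum_insert ha,
      length_quotient_step (Ideal.span (Set.range y) ^ K ⊔ Ideal.span (mon y '' ↑s)) (mon y a)]
    have e : Ideal.span (Set.range y) ^ K ⊔ Ideal.span (mon y '' ↑s) ⊔ Ideal.span {mon y a} =
        Ideal.span (Set.range y) ^ K ⊔ Ideal.span (mon y '' ↑(insert a s)) := by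
      rw [Finset.coe_insert, Set.image_insert_eq, Ideal.span_insert]
      ac_rfl
    rw [e, piece, above, hset]
    ring

/-- Weighting generators of `I` divides colengths by at most the product of the weights. -/
theorem length_le_prod_mul (hw : ∀ i, 1 ≤ w i) (K : ℕ)
    (hfin : Module.length S (S ⧸ Ideal.span (Set.range y) ^ K) ≠ ⊤) :
    Module.length S (S ⧸ Ideal.span (Set.range y) ^ K) ≤
      ((∏ i, w i : ℕ) : ℕ∞) * Module.length S (S ⧸ weightIdeal y w K) := by
  classical
  rcases Nat.eq_zero_or_pos K with rfl | hK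
  · have : Subsingleton (S ⧸ Ideal.span (Set.range y) ^ 0) :=
      Ideal.Quotient.subsingleton_iff.2 (by simp)
    simp [Module.length_eq_zero]
  set J := Ideal.span (Set.range y) ^ K with hJ
  set U := (box n K).filter (fun α => K ≤ wt w α) with hU
  set D := (box n K).filter (fun α => ¬ K ≤ wt w α) with hD
  have htot : ∑ α ∈ box n K, piece y w K α = Module.length S (S ⧸ J) := by
    have h := sum_piece y w K (box n K) subset_rfl (fun _ _ β hβ _ => hβ)
    have : Subsingleton (S ⧸ (J ⊔ Ideal.span (mon y '' ↑(box n K)))) :=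
      Ideal.Quotient.subsingleton_iff.2 ((Ideal.eq_top_iff_one _).2
        (Ideal.mem_sup_right (Ideal.subset_span ⟨0, by simp [mem_box]; omega, mon_zero y⟩)))
    rwa [Module.length_eq_zero, zero_add] at h
  have hV : weightIdeal y w K = J ⊔ Ideal.span (mon y '' ↑U) := by
    refine le_antisymm (Ideal.span_le.2 ?_) (sup_le (span_le_weightIdeal y hw K)
      (Ideal.span_mono (Set.image_mono fun α hα => (Finset.mem_filter.1 hα).2)))
    rintro _ ⟨α, hα, rfl⟩
    by_cases hb : α ∈ box n K
    · exact Ideal.mem_sup_right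
        (Ideal.subset_span ⟨α, Finset.mem_filter.2 ⟨hb, hα⟩, rfl⟩)
    · rw [mem_box, not_lt] at hb
      exact Ideal.mem_sup_left (Ideal.pow_le_pow_right hb (mon_mem_pow y α))
  have hrest : Module.length S (S ⧸ weightIdeal y w K) = ∑ α ∈ D, piece y w K α := by
    have h := sum_piece y w K U (Finset.filter_subset _ _) (fun α hα β hβ hlt =>
      Finset.mem_filter.2 ⟨hβ,
        le_trans (Finset.mem_filter.1 hα).2 (wt_le_of_key_lt w hlt)⟩)
    rw [← hV, ← htot, ← Finset.sum_filter_add_sum_filter_not (box n K) (fun α => K ≤ wt w α),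
      add_comm] at h
    have hne : ∑ α ∈ U, piece y w K α ≠ ⊤ := ne_top_of_le_ne_top hfin
      (htot ▸ Finset.sum_le_sum_of_subset (Finset.filter_subset _ _))
    exact WithTop.add_left_cancel hne h
  set f : (Fin n → ℕ) → (Fin n → ℕ) := fun α i => α i / w i with hf
  have hmaps : ∀ α ∈ box n K, f α ∈ D := fun α hα => by
    have h1 : wt w (f α) ≤ ∑ i, α i :=
      Finset.sum_le_sum fun i _ => Nat.mul_div_le (α i) (w i)
    have h2 : ∑ i, f α i ≤ ∑ i, α i := Finset.sum_le_sum fun i _ => Nat.div_le_self _ _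
    have h3 := mem_box.1 hα
    exact Finset.mem_filter.2 ⟨mem_box.2 (by omega), by omega⟩
  have hcard : ∀ β, ((box n K).filter fun α => f α = β).card ≤ ∏ i, w i := fun β => by
    calc ((box n K).filter fun α => f α = β).card
        ≤ (Fintype.piFinset fun i => Finset.Ico (β i * w i) (β i * w i + w i)).card := by
          refine Finset.card_le_card fun α hα => ?_
          refine Fintype.mem_piFinset.2 fun i => Finset.mem_Ico.2 ?_
          have h1 : α i / w i = β i := congrFun (Finset.mem_filter.1 hα).2 i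
          have h2 := Nat.div_add_mod (α i) (w i)
          have h3 := Nat.mod_lt (α i) (hw i)
          rw [h1, mul_comm] at h2
          omega
      _ = ∏ i, w i := by simp
  calc Module.length S (S ⧸ J) = ∑ α ∈ box n K, piece y w K α := htot.symm
    _ ≤ ∑ α ∈ box n K, piece y w K (f α) := Finset.sum_le_sum fun α _ => by
        have h1 : α = f α + (α - f α) := by
          funext i
          simp only [Pi.add_apply, Pi.sub_apply, hf]
          have := Nat.div_le_self (α i) (w i)
          omega
        exact (congrArg (piece y w K) h1).le.trans (piece_add_le y w K _ _)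
    _ = ∑ β ∈ D, ∑ α ∈ (box n K).filter (fun α => f α = β), piece y w K β := by
        rw [← Finset.sum_fiberwise_of_maps_to hmaps]
        exact Finset.sum_congr rfl fun β _ => Finset.sum_congr rfl fun α hα => by
          rw [(Finset.mem_filter.1 hα).2]
    _ ≤ ∑ β ∈ D, ((∏ i, w i : ℕ) : ℕ∞) * piece y w K β := Finset.sum_le_sum fun β _ => by
        rw [Finset.sum_const, nsmul_eq_mul]
        exact mul_le_mul_left (by exact_mod_cast hcard β) _
    _ = _ := by rw [← Finset.mul_sum, hrest]

end Vale.Agent.P202
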