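import Vale.Agent.P202.Lech
import Vale.Agent.P202.Weighted

/-!
Bounds of Lech type from the degrees of equations and the Loewy length of the closed fibre.
-/

namespace Vale.Agent.P202

open IsLocalRing Filter Topology

theorem pow_le_of_le_sup {S : Type*} [CommRing S] [IsLocalRing S] [IsNoetherianRing S]
    {E : Ideal S} {j : ℕ} (h : maximalIdeal S ^ j ≤ E ⊔ maximalIdeal S ^ (j + 1)) :
    maximalIdeal S ^ j ≤ E := by
  refine Submodule.le_of_le_smul_of_le_jacobson_bot (IsNoetherian.noetherian _)
    (IsLocalRing.maximalIdeal_le_jacobson ⊥) ?_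
  rwa [smul_eq_mul, mul_comm, ← pow_succ]

variable {R S : Type*} [CommRing R] [CommRing S] [IsLocalRing R] [IsLocalRing S]
  [IsNoetherianRing R] [IsNoetherianRing S] [Algebra R S] [IsLocalHom (algebraMap R S)]
  [Module.Flat R S]

omit [IsLocalRing S] [IsNoetherianRing R] [IsNoetherianRing S]
  [IsLocalHom (algebraMap R S)] [Module.Flat R S] in
theorem exists_coeff (a : Finset R) (has : Ideal.span (a : Set R) = maximalIdeal R) :
    ∀ p ∈ (maximalIdeal R).map (algebraMap R S),
      ∃ s : R → S, ∑ i ∈ a, algebraMap R S i * s i = p := by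
  classical
  intro p hp
  rw [← has, Ideal.map_span] at hp
  induction hp using Submodule.span_induction with
  | mem x hx =>
    obtain ⟨i, hi, rfl⟩ := hx
    refine ⟨fun j => if j = i then 1 else 0, ?_⟩
    rw [Finset.sum_eq_single i (fun j _ hj => by simp [hj]) (fun h => absurd hi h)]
    simp
  | zero => exact ⟨0, by simp⟩
  | add x y _ _ hx hy =>
    obtain ⟨s, hs⟩ := hx; obtain ⟨t, ht⟩ := hy
    exact ⟨s + t, by simp [mul_add, Finset.sum_add_distrib, hs, ht]⟩
  | smul c x _ hx =>
    obtain ⟨s, hs⟩ := hx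
    exact ⟨fun i => c * s i, by
      rw [smul_eq_mul, ← hs, Finset.mul_sum]; exact Finset.sum_congr rfl fun i _ => by ring⟩

omit [IsNoetherianRing S] in
/-- If the fibre is not monogenic, products of `k + 1` elements of `n` lie in `mS * n`. -/
theorem pow_le_mul_max {k : ℕ} (hk : 1 ≤ k)
    (h2 : maximalIdeal S ^ (k + 1) ≤ (maximalIdeal R).map (algebraMap R S))
    (hg : maximalIdeal S = (maximalIdeal R).map (algebraMap R S) ∨ ∀ z : S,
      maximalIdeal S ≠ Ideal.span {z} ⊔ (maximalIdeal R).map (algebraMap R S)) :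
    maximalIdeal S ^ (k + 1) ≤ (maximalIdeal R).map (algebraMap R S) * maximalIdeal S := by
  classical
  rcases hg with hg | hg
  · rw [pow_succ, ← hg]
    exact Ideal.mul_mono_left (Ideal.pow_le_self (by omega))
  obtain ⟨a, has, ha⟩ := exists_minimal_generators (R := R)
  have hJ := exists_coeff (S := S) a has
  rw [pow_succ, Ideal.mul_le]
  intro y hy z hz
  obtain ⟨s, hs⟩ := hJ (y * z) (h2 (by rw [pow_succ]; exact Ideal.mul_mem_mul hy hz))
  by_cases hall : ∀ i ∈ a, s i ∈ maximalIdeal S
  · rw [← hs]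
    refine sum_mem fun i hi => Ideal.mul_mem_mul (Ideal.mem_map_of_mem _ ?_) (hall i hi)
    rw [← has]; exact Ideal.subset_span hi
  exfalso
  push Not at hall
  obtain ⟨i, hi, hsi⟩ := hall
  obtain ⟨v, hv⟩ := (IsLocalRing.notMem_maximalIdeal.1 hsi).exists_left_inv
  refine hg z (le_antisymm (fun x hx => ?_) ?_)
  · obtain ⟨t, ht⟩ := hJ (x * y) (h2 (by
      rw [pow_succ, mul_comm x y]; exact Ideal.mul_mem_mul hy hx))
    have hrel : ∑ j ∈ a, algebraMap R S j * (x * s j - z * t j) = 0 := by
      simp only [mul_sub, Finset.sum_sub_distrib]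
      have e1 : ∑ j ∈ a, algebraMap R S j * (x * s j) = x * (y * z) := by
        rw [← hs, Finset.mul_sum]; exact Finset.sum_congr rfl fun j _ => by ring
      have e2 : ∑ j ∈ a, algebraMap R S j * (z * t j) = z * (x * y) := by
        rw [← ht, Finset.mul_sum]; exact Finset.sum_congr rfl fun j _ => by ring
      rw [e1, e2]; ring
    have h3 := coeff_mem_of_relation a ha _ hrel i hi
    have e : x = v * t i * z + v * (x * s i - z * t i) := by
      linear_combination (-x) * hv
    rw [e]
    exact Submodule.add_mem_sup (Ideal.mem_span_singleton'.2 ⟨_, rfl⟩) (Ideal.mul_mem_left _ _ h3)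
  · refine sup_le ((Ideal.span_singleton_le_iff_mem _).2 hz) ?_
    exact IsLocalRing.le_maximalIdeal (IsLocalRing.map_maximalIdeal_lt_top (algebraMap R S)).ne

theorem dim_eq_of_pow_le {c : ℕ}
    (hc : maximalIdeal S ^ c ≤ (maximalIdeal R).map (algebraMap R S)) :
    ringKrullDim S = ringKrullDim R := by
  set J := (maximalIdeal R).map (algebraMap R S) with hJ
  have hle : J ≤ maximalIdeal S :=
    IsLocalRing.le_maximalIdeal (IsLocalRing.map_maximalIdeal_lt_top (algebraMap R S)).ne
  have : (maximalIdeal S).LiesOver (maximalIdeal R) :=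
    ⟨((IsLocalRing.maximalIdeal.isMaximal R).eq_of_le
      ((IsLocalRing.maximalIdeal.isMaximal S).isPrime.under R).ne_top
      (Ideal.map_le_iff_le_comap.1 hle))⟩
  have h3 := Ideal.height_eq_height_add_of_liesOver_of_hasGoingDown (maximalIdeal R)
    (maximalIdeal S)
  have : ((maximalIdeal S).map (Ideal.Quotient.mk J)).IsPrime :=
    Ideal.map_isPrime_of_surjective Ideal.Quotient.mk_surjective
      (by rw [Ideal.mk_ker]; exact hle)
  have h4 : ((maximalIdeal S).map (Ideal.Quotient.mk J)).height = 0 := by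
    rw [Ideal.height_eq_zero_iff, minimalPrimes_eq_minimals]
    refine ⟨inferInstance, fun Q hQ _ => ?_⟩
    refine Ideal.map_le_iff_le_comap.2 ((hQ.comap _).le_of_pow_le (n := c) (hc.trans ?_))
    intro x hx
    simp [Ideal.mem_comap, Ideal.Quotient.eq_zero_iff_mem.2 hx]
  rw [h4, add_zero] at h3
  rw [← IsLocalRing.maximalIdeal_height_eq_ringKrullDim,
    ← IsLocalRing.maximalIdeal_height_eq_ringKrullDim, h3]

omit [Module.Flat R S] [IsNoetherianRing R] [IsLocalHom (algebraMap R S)] in
/-- One step `n ^ c ≤ n ^ (c - q) * mS` puts high powers of `n` into powers of `mS`. -/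
theorem pow_le_map_pow {c q : ℕ} (hq : q ≤ c)
    (h : maximalIdeal S ^ c ≤
      maximalIdeal S ^ (c - q) * (maximalIdeal R).map (algebraMap R S) ⊔
        maximalIdeal S ^ (c + 1)) (M : ℕ) :
    maximalIdeal S ^ (q * M + c) ≤ ((maximalIdeal R).map (algebraMap R S)) ^ M := by
  have h' := pow_le_of_le_sup h
  induction M with
  | zero => simp
  | succ M ih =>
    calc maximalIdeal S ^ (q * (M + 1) + c)
        = maximalIdeal S ^ (q * M + q) * maximalIdeal S ^ c := by
          rw [← pow_add, mul_add, mul_one]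
      _ ≤ maximalIdeal S ^ (q * M + q) *
          (maximalIdeal S ^ (c - q) * (maximalIdeal R).map (algebraMap R S)) :=
          Ideal.mul_mono_right h'
      _ = maximalIdeal S ^ (q * M + c) * (maximalIdeal R).map (algebraMap R S) := by
          rw [← mul_assoc, ← pow_add, show q * M + q + (c - q) = q * M + c by omega]
      _ ≤ _ := by rw [pow_succ]; exact Ideal.mul_mono_left ih

omit [IsNoetherianRing R] in
theorem length_power_bound {c q : ℕ} (hq : q ≤ c)
    (h : maximalIdeal S ^ c ≤
      maximalIdeal S ^ (c - q) * (maximalIdeal R).map (algebraMap R S) ⊔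
        maximalIdeal S ^ (c + 1)) (M : ℕ) :
    Module.length R (R ⧸ maximalIdeal R ^ M) *
      Module.length S (S ⧸ (maximalIdeal R).map (algebraMap R S)) ≤
      Module.length S (S ⧸ maximalIdeal S ^ (q * M + c)) := by
  rw [← length_map]
  exact length_quotient_mono (pow_le_map_pow hq h M)

/-- Equations `G` of degrees `q` for the fibre give the bound with the product of the degrees. -/
theorem length_weighted_bound {c s : ℕ}
    (hc : maximalIdeal S ^ c ≤ (maximalIdeal R).map (algebraMap R S))
    (G : Fin s → S) (q : Fin s → ℕ) (hG : ∀ j, G j ∈ (maximalIdeal R).map (algebraMap R S))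
    (hq1 : ∀ j, 1 ≤ q j) (hqc : ∀ j, q j ≤ c)
    (h : maximalIdeal S ^ c ≤ (⨆ j, Ideal.span {G j} * maximalIdeal S ^ (c - q j)) ⊔
      maximalIdeal S ^ (c - 1) * (maximalIdeal R).map (algebraMap R S) ⊔
        maximalIdeal S ^ (c + 1)) (K : ℕ) :
    Module.length R (R ⧸ maximalIdeal R ^ K) *
      Module.length S (S ⧸ (maximalIdeal R).map (algebraMap R S)) ≤
      ((∏ j, q j : ℕ) : ℕ∞) * Module.length S (S ⧸ maximalIdeal S ^ (K + (c - 1))) := by
  classical
  have h' := pow_le_of_le_sup h
  set I := (maximalIdeal R).map (algebraMap R S) with hI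
  have hIle : I ≤ maximalIdeal S :=
    IsLocalRing.le_maximalIdeal (IsLocalRing.map_maximalIdeal_lt_top (algebraMap R S)).ne
  have hc1 : 1 ≤ c := by
    rcases Nat.eq_zero_or_pos c with rfl | h0
    · rw [pow_zero, Ideal.one_eq_top, top_le_iff] at hc
      exact absurd hc (IsLocalRing.map_maximalIdeal_lt_top (algebraMap R S)).ne
    · exact h0
  obtain ⟨a, has, -⟩ := exists_minimal_generators (R := R)
  set u := a.card
  set g : Fin u → S := fun i => algebraMap R S (a.equivFin.symm i : R) with hg
  set y : Fin (s + u) → S := Fin.append G g with hy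
  set w : Fin (s + u) → ℕ := Fin.append q (fun _ : Fin u => 1) with hwdef
  have hspan : Ideal.span (Set.range y) = I := by
    refine le_antisymm (Ideal.span_le.2 ?_) ?_
    · rintro _ ⟨i, rfl⟩
      refine Fin.addCases (fun j => ?_) (fun j => ?_) i
      · simpa [hy] using hG j
      · simp only [hy, Fin.append_right, hg]
        refine Ideal.mem_map_of_mem _ ?_
        rw [← has]
        exact Ideal.subset_span (a.equivFin.symm j).2
    · rw [hI, ← has, Ideal.map_span, Ideal.span_le]
      rintro _ ⟨x, hx, rfl⟩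
      exact Ideal.subset_span ⟨Fin.natAdd s (a.equivFin ⟨x, hx⟩), by simp [hy, hg]⟩
  have hw : ∀ i, 1 ≤ w i := fun i => by
    refine Fin.addCases (fun j => ?_) (fun j => ?_) i
    · simpa [hwdef] using hq1 j
    · simp [hwdef]
  have hprod : ∏ i, w i = ∏ j, q j := by simp [hwdef, Fin.prod_univ_add]
  have hin : ∀ N, maximalIdeal S ^ N ≤ weightIdeal y w (N + 1 - c) := by
    intro N
    induction N using Nat.strong_induction_on with
    | _ N ih =>
      rcases Nat.lt_or_ge N c with hN | hN
      · rw [show N + 1 - c = 0 by omega, weightIdeal_zero]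
        exact le_top
      rw [show maximalIdeal S ^ N = maximalIdeal S ^ c * maximalIdeal S ^ (N - c) by
        rw [← pow_add]; congr 1; omega]
      refine (Ideal.mul_mono_left h').trans ?_
      rw [Ideal.sup_mul, Ideal.iSup_mul]
      refine sup_le (iSup_le fun j => ?_) ?_
      · have h1 := hq1 j
        have h2 := hqc j
        rw [mul_assoc, ← pow_add, show c - q j + (N - c) = N - q j by omega]
        refine (Ideal.mul_mono_right (ih (N - q j) (by omega))).trans ?_
        have e := span_singleton_mul_weightIdeal y w (Fin.castAdd u j) (N - q j + 1 - c)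
        simp only [hy, hwdef, Fin.append_left] at e ⊢
        exact e.trans (weightIdeal_anti _ _ (by omega))
      · rw [mul_comm (maximalIdeal S ^ (c - 1)) I, mul_assoc, ← pow_add,
          show c - 1 + (N - c) = N - 1 by omega]
        refine (Ideal.mul_mono_right (ih (N - 1) (by omega))).trans ?_
        rw [← hspan]
        exact (span_mul_weightIdeal y hw _).trans (weightIdeal_anti _ _ (by omega))
  have hfin : Module.length S (S ⧸ Ideal.span (Set.range y) ^ K) ≠ ⊤ := by
    rw [hspan]
    refine length_quotient_ne_top _ (c * K) ?_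
    rw [pow_mul]
    exact Ideal.pow_right_mono hc K
  have hmain := length_le_prod_mul y w hw K hfin
  rw [hspan, hprod, hI, length_map] at hmain
  refine hmain.trans (mul_le_mul_right (length_quotient_mono ?_) _)
  exact (hin (K + (c - 1))).trans (weightIdeal_anti _ _ (by omega))

omit [Module.Flat R S] [IsNoetherianRing R] [IsLocalHom (algebraMap R S)] in
theorem multiplicity_bound {q off P : ℕ} (hq : 1 ≤ q)
    (h : ∀ M, Module.length R (R ⧸ maximalIdeal R ^ M) *
      Module.length S (S ⧸ (maximalIdeal R).map (algebraMap R S)) ≤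
      (P : ℕ∞) * Module.length S (S ⧸ maximalIdeal S ^ (q * M + off)))
    {d : ℕ} {e e' : ℝ} (he : IsMultiplicity R d e) (he' : IsMultiplicity S d e') :
    ((Module.length S (S ⧸ (maximalIdeal R).map (algebraMap R S))).toNat : ℝ) * e ≤
      (P : ℝ) * (q : ℝ) ^ d * e' := by
  set L := Module.length S (S ⧸ (maximalIdeal R).map (algebraMap R S)) with hL
  let r : ℕ → ℝ := fun N => ((Module.length R (R ⧸ maximalIdeal R ^ N)).toNat : ℝ)
  let p : ℕ → ℝ := fun N => ((Module.length S (S ⧸ maximalIdeal S ^ N)).toNat : ℝ)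
  have hb : ∀ M, r M * L.toNat ≤ P * p (q * M + off) := fun M => by
    have h3 := ENat.toNat_le_toNat (h M)
      (WithTop.mul_ne_top (ENat.natCast_ne_top P) (length_quotient_ne_top _ _ le_rfl))
    rw [ENat.toNat_mul, ENat.toNat_mul, ENat.toNat_natCast] at h3
    simp only [p, r]
    exact_mod_cast h3
  have hr : Tendsto (fun M : ℕ => (d.factorial : ℝ) * r M / (M : ℝ) ^ d) atTop (𝓝 e) := he
  have hp : Tendsto (fun M : ℕ => (d.factorial : ℝ) * p M / (M : ℝ) ^ d) atTop (𝓝 e') := he'
  have hsub : Tendsto (fun M : ℕ => q * M + off) atTop atTop :=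
    tendsto_atTop_mono (fun M => (Nat.le_mul_of_pos_left M hq).trans (Nat.le_add_right _ _)) tendsto_id
  have hratio : Tendsto (fun M : ℕ => (((q * M + off : ℕ) : ℝ) / (M : ℝ)) ^ d) atTop
      (𝓝 ((q : ℝ) ^ d)) := by
    refine Tendsto.pow ?_ d
    have h1 : Tendsto (fun M : ℕ => (q : ℝ) + (off : ℝ) / (M : ℝ)) atTop (𝓝 ((q : ℝ) + 0)) :=
      tendsto_const_nhds.add (tendsto_const_div_atTop_nhds_zero_nat _)
    rw [add_zero] at h1
    refine h1.congr' (eventually_atTop.2 ⟨1, fun M hM => ?_⟩)
    have : (0 : ℝ) < M := by exact_mod_cast hM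
    push_cast
    field_simp
  have hR := ((hp.comp hsub).mul hratio).const_mul (P : ℝ)
  rw [show (P : ℝ) * (q : ℝ) ^ d * e' = (P : ℝ) * (e' * (q : ℝ) ^ d) by ring]
  refine le_of_tendsto_of_tendsto (hr.const_mul (L.toNat : ℝ)) hR
    (eventually_atTop.2 ⟨1, fun M hM => ?_⟩)
  simp only [Function.comp_apply]
  have hM' : (0 : ℝ) < M := by exact_mod_cast hM
  have hN' : (0 : ℝ) < ((q * M + off : ℕ) : ℝ) := by
    exact_mod_cast (by nlinarith : 0 < q * M + off)
  have key : (d.factorial : ℝ) * (r M * L.toNat) / (M : ℝ) ^ d ≤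
      (d.factorial : ℝ) * (P * p (q * M + off)) / (M : ℝ) ^ d := by
    exact div_le_div_of_nonneg_right (mul_le_mul_of_nonneg_left (hb M) (by positivity))
      (by positivity)
  refine le_trans (le_of_eq (by ring)) (key.trans (le_of_eq ?_))
  rw [div_pow]
  field_simp

omit [IsNoetherianRing R] in
theorem bound_of_power {c q : ℕ} (hq1 : 1 ≤ q) (hqc : q ≤ c)
    (h : maximalIdeal S ^ c ≤
      maximalIdeal S ^ (c - q) * (maximalIdeal R).map (algebraMap R S) ⊔
        maximalIdeal S ^ (c + 1))
    {d : ℕ} {e e' : ℝ} (he : IsMultiplicity R d e) (he' : IsMultiplicity S d e') :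
    ((Module.length S (S ⧸ (maximalIdeal R).map (algebraMap R S))).toNat : ℝ) * e ≤
      (q : ℝ) ^ d * e' := by
  have := multiplicity_bound (P := 1) (off := c) hq1
    (fun M => by rw [Nat.cast_one, one_mul]; exact length_power_bound hqc h M) he he'
  simpa using this

theorem bound_of_equations {c s : ℕ}
    (hc : maximalIdeal S ^ c ≤ (maximalIdeal R).map (algebraMap R S))
    (G : Fin s → S) (q : Fin s → ℕ) (hG : ∀ j, G j ∈ (maximalIdeal R).map (algebraMap R S))
    (hq1 : ∀ j, 1 ≤ q j) (hqc : ∀ j, q j ≤ c)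
    (h : maximalIdeal S ^ c ≤ (⨆ j, Ideal.span {G j} * maximalIdeal S ^ (c - q j)) ⊔
      maximalIdeal S ^ (c - 1) * (maximalIdeal R).map (algebraMap R S) ⊔
        maximalIdeal S ^ (c + 1))
    {d : ℕ} {e e' : ℝ} (he : IsMultiplicity R d e) (he' : IsMultiplicity S d e') :
    ((Module.length S (S ⧸ (maximalIdeal R).map (algebraMap R S))).toNat : ℝ) * e ≤
      (∏ j, q j : ℕ) * e' := by
  have := multiplicity_bound (P := ∏ j, q j) (off := c - 1) (q := 1) le_rfl
    (fun M => by rw [one_mul]; exact length_weighted_bound hc G q hG hq1 hqc h M) he he'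
  simpa using this

/-- A fibre that is not monogenic, of Loewy length at most `c`: the constant is `(c - 1) ^ d`. -/
theorem bound_of_not_monogenic {c : ℕ} (hc2 : 2 ≤ c)
    (hc : maximalIdeal S ^ c ≤ (maximalIdeal R).map (algebraMap R S))
    (hg : maximalIdeal S = (maximalIdeal R).map (algebraMap R S) ∨ ∀ z : S,
      maximalIdeal S ≠ Ideal.span {z} ⊔ (maximalIdeal R).map (algebraMap R S))
    {d : ℕ} {e e' : ℝ} (he : IsMultiplicity R d e) (he' : IsMultiplicity S d e') :
    ((Module.length S (S ⧸ (maximalIdeal R).map (algebraMap R S))).toNat : ℝ) * e ≤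
      ((c - 1 : ℕ) : ℝ) ^ d * e' := by
  refine bound_of_power (c := c) (q := c - 1) (by omega) (by omega) ?_ he he'
  refine le_sup_of_le_left ?_
  rw [show c - (c - 1) = 1 by omega, pow_one, mul_comm]
  obtain ⟨k, rfl⟩ : ∃ k, c = k + 1 := ⟨c - 1, by omega⟩
  exact pow_le_mul_max (by omega) hc hg

omit [Module.Flat R S] [IsNoetherianRing R] [IsLocalHom (algebraMap R S)] in
theorem le_length_fibre {c₀ : ℕ}
    (hmin : ∀ j < c₀, ¬ maximalIdeal S ^ j ≤ (maximalIdeal R).map (algebraMap R S)) :
    (c₀ : ℕ∞) ≤ Module.length S (S ⧸ (maximalIdeal R).map (algebraMap R S)) := by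
  set I := (maximalIdeal R).map (algebraMap R S) with hI
  have key : ∀ j ≤ c₀, (j : ℕ∞) ≤ Module.length S (S ⧸ (maximalIdeal S ^ j ⊔ I)) := by
    intro j hj
    induction j with
    | zero => exact bot_le
    | succ j ih =>
      have hne : ¬ maximalIdeal S ^ j ≤ maximalIdeal S ^ (j + 1) ⊔ I := fun hle =>
        hmin j (by omega) (pow_le_of_le_sup (by rwa [sup_comm]))
      obtain ⟨x, hx, hxn⟩ := Set.not_subset.1 hne
      rw [length_quotient_step _ x]
      push_cast
      refine add_le_add ((ih (by omega)).trans (length_quotient_mono (sup_le (sup_le_sup_right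
        (Ideal.pow_le_pow_right (Nat.le_succ j)) I) ?_))) ?_
      · exact (Ideal.span_singleton_le_iff_mem _).2 (Ideal.mem_sup_left hx)
      · rw [Order.one_le_iff_ne_zero, Ne, Module.length_eq_zero_iff,
          Submodule.Quotient.subsingleton_iff]
        intro htop
        have : (1 : S) ∈ Submodule.comap (LinearMap.mulRight S x)
            (maximalIdeal S ^ (j + 1) ⊔ I) := by rw [htop]; exact Submodule.mem_top
        exact hxn (by simpa using this)
  exact (key c₀ le_rfl).trans (length_quotient_mono le_sup_right)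

theorem lech_monogenic {c : ℕ}
    (hc : maximalIdeal S ^ c ≤ (maximalIdeal R).map (algebraMap R S)) {z : S}
    (hz : maximalIdeal S = Ideal.span {z} ⊔ (maximalIdeal R).map (algebraMap R S))
    {d : ℕ} {e e' : ℝ} (he : IsMultiplicity R d e) (he' : IsMultiplicity S d e') : e ≤ e' := by
  classical
  set I := (maximalIdeal R).map (algebraMap R S) with hI
  have hex : ∃ j, maximalIdeal S ^ j ≤ I := ⟨c, hc⟩
  obtain ⟨c₀, hc₀, hmin⟩ : ∃ c₀, maximalIdeal S ^ c₀ ≤ I ∧
      ∀ j < c₀, ¬ maximalIdeal S ^ j ≤ I :=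
    ⟨Nat.find hex, Nat.find_spec hex, fun j hj => Nat.find_min hex hj⟩
  obtain ⟨k, rfl⟩ : ∃ k, c₀ = k + 1 := by
    refine ⟨c₀ - 1, ?_⟩
    rcases Nat.eq_zero_or_pos c₀ with rfl | h0
    · rw [pow_zero, Ideal.one_eq_top, top_le_iff] at hc₀
      exact absurd hc₀ (IsLocalRing.map_maximalIdeal_lt_top (algebraMap R S)).ne
    · omega
  have hzn : z ∈ maximalIdeal S := by
    rw [hz]; exact Ideal.mem_sup_left (Ideal.mem_span_singleton_self z)
  have hsplit : ∀ j : ℕ,
      maximalIdeal S ^ (j + 1) ≤ Ideal.span {z ^ (j + 1)} ⊔ maximalIdeal S ^ j * I := by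
    intro j
    induction j with
    | zero => simp [← hz]
    | succ j ih =>
      rw [pow_succ (maximalIdeal S) (j + 1)]
      refine (Ideal.mul_mono_left ih).trans ?_
      rw [Ideal.sup_mul]
      refine sup_le ?_ (le_sup_of_le_right ?_)
      · nth_rewrite 1 [hz]
        rw [Ideal.mul_sup, Ideal.span_singleton_mul_span_singleton, ← pow_succ]
        exact sup_le_sup le_rfl (Ideal.mul_mono_left
          ((Ideal.span_singleton_le_iff_mem _).2 (Ideal.pow_mem_pow hzn _)))
      · rw [mul_right_comm, ← pow_succ]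
  have hb := bound_of_equations (c := k + 1) (s := 1) hc₀ (fun _ => z ^ (k + 1))
    (fun _ => k + 1) (fun _ => hc₀ (Ideal.pow_mem_pow hzn _)) (fun _ => by omega)
    (fun _ => le_rfl) (le_sup_of_le_left (by simpa using hsplit k)) he he'
  have hL := ENat.toNat_le_toNat (le_length_fibre hmin)
    (length_quotient_ne_top _ _ hc₀)
  rw [ENat.toNat_natCast] at hL
  have hLr : ((k + 1 : ℕ) : ℝ) ≤
      ((Module.length S (S ⧸ I)).toNat : ℝ) := by exact_mod_cast hL
  have he0 : 0 ≤ e := ge_of_tendsto' (show Tendsto _ atTop (𝓝 e) from he) fun N => by positivity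
  have hk : (0 : ℝ) < ((k + 1 : ℕ) : ℝ) := by positivity
  simp only [Finset.univ_unique, Finset.prod_singleton] at hb
  nlinarith

/-- `r` generators of the fibre give a constant independent of the dimension. -/
theorem bound_of_generators {c r : ℕ}
    (hc : maximalIdeal S ^ c ≤ (maximalIdeal R).map (algebraMap R S)) (z : Fin r → S)
    (hz : maximalIdeal S = Ideal.span (Set.range z) ⊔ (maximalIdeal R).map (algebraMap R S))
    {d : ℕ} {e e' : ℝ} (he : IsMultiplicity R d e) (he' : IsMultiplicity S d e') :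
    ((Module.length S (S ⧸ (maximalIdeal R).map (algebraMap R S))).toNat : ℝ) * e ≤
      (c : ℝ) ^ r * e' := by
  set I := (maximalIdeal R).map (algebraMap R S) with hI
  have hzn : Ideal.span (Set.range z) ≤ maximalIdeal S := le_sup_left.trans hz.ge
  have hc1 : 1 ≤ c := by
    rcases Nat.eq_zero_or_pos c with rfl | h0
    · rw [pow_zero, Ideal.one_eq_top, top_le_iff] at hc
      exact absurd hc (IsLocalRing.map_maximalIdeal_lt_top (algebraMap R S)).ne
    · exact h0
  have hsplit : ∀ j : ℕ, maximalIdeal S ^ (j + 1) ≤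
      Ideal.span (Set.range z) ^ (j + 1) ⊔ maximalIdeal S ^ j * I := by
    intro j
    induction j with
    | zero => simp [← hz]
    | succ j ih =>
      rw [pow_succ (maximalIdeal S) (j + 1)]
      refine (Ideal.mul_mono_left ih).trans ?_
      rw [Ideal.sup_mul]
      refine sup_le ?_ (le_sup_of_le_right ?_)
      · nth_rewrite 1 [hz]
        rw [Ideal.mul_sup, ← pow_succ]
        exact sup_le_sup le_rfl (Ideal.mul_mono_left (Ideal.pow_right_mono hzn _))
      · rw [mul_right_comm, ← pow_succ]
  set N := r * (c - 1) + 1 with hN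
  have hcN : ∀ _j : Fin r, c ≤ N := fun j => by
    have : c - 1 ≤ r * (c - 1) := Nat.le_mul_of_pos_left _ j.pos
    omega
  have hNI : maximalIdeal S ^ N ≤ I := by
    rcases Nat.eq_zero_or_pos r with rfl | hr
    · simp [hN, hz]
    · exact (Ideal.pow_le_pow_right (hcN ⟨0, hr⟩)).trans hc
  have hb := bound_of_equations (c := N) hNI (fun j => z j ^ c) (fun _ => c)
    (fun j => hc (Ideal.pow_mem_pow (hzn (Ideal.subset_span (Set.mem_range_self j))) c))
    (fun _ => hc1) hcN (le_sup_of_le_left ?_) he he'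
  · simpa using hb
  refine (hsplit (r * (c - 1))).trans (sup_le_sup ?_ le_rfl)
  refine (pow_le_span_mon z N).trans (Ideal.span_le.2 ?_)
  rintro _ ⟨α, hα, rfl⟩
  have hα' : N ≤ ∑ i, α i := hα
  obtain ⟨j, hj⟩ : ∃ j, c ≤ α j := by
    by_contra hne
    push Not at hne
    have h1 := Finset.sum_le_card_nsmul Finset.univ α (c - 1) (fun i _ => by
      have := hne i
      omega)
    simp only [Finset.card_univ, Fintype.card_fin, smul_eq_mul] at h1
    have h3 : ∑ i, α i ≤ r * (c - 1) := h1
    omega
  refine Submodule.mem_iSup_of_mem j ?_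
  have hsum : ∑ i, (α - Pi.single j c : Fin r → ℕ) i + c = ∑ i, α i := by
    rw [← Finset.add_sum_erase _ _ (Finset.mem_univ j),
      ← Finset.add_sum_erase _ α (Finset.mem_univ j)]
    rw [Finset.sum_congr rfl (g := fun i => α i) fun i hi => by
      simp [Finset.ne_of_mem_erase hi]]
    simp only [Pi.sub_apply, Pi.single_eq_same]
    omega
  have hsplitα : α = Pi.single j c + (α - Pi.single j c) := by
    funext i
    rcases eq_or_ne i j with rfl | hij
    · simp; omega
    · simp [hij]
  rw [hsplitα, mon_add]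
  refine Ideal.mul_mem_mul ?_ ?_
  · rw [Ideal.mem_span_singleton, mon, Finset.prod_eq_single j
      (fun i _ hi => by simp [hi]) (by simp), Pi.single_eq_same]
  · refine Ideal.pow_le_pow_right ?_ (Ideal.pow_right_mono hzn _ (mon_mem_pow z _))
    omega

theorem lech_of_length {c : ℕ}
    (hc : maximalIdeal S ^ c ≤ (maximalIdeal R).map (algebraMap R S))
    {d : ℕ} (hL : ((c - 1) ^ d : ℕ) ≤
      Module.length S (S ⧸ (maximalIdeal R).map (algebraMap R S)))
    {e e' : ℝ} (he : IsMultiplicity R d e) (he' : IsMultiplicity S d e') : e ≤ e' := by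
  set I := (maximalIdeal R).map (algebraMap R S) with hI
  have hlt := IsLocalRing.map_maximalIdeal_lt_top (algebraMap R S)
  have hIle : I ≤ maximalIdeal S := IsLocalRing.le_maximalIdeal hlt.ne
  by_cases hmono : ∃ z : S, maximalIdeal S = Ideal.span {z} ⊔ I
  · obtain ⟨z, hz⟩ := hmono
    exact lech_monogenic hc hz he he'
  push Not at hmono
  rcases Nat.lt_or_ge c 2 with hc2 | hc2
  · refine absurd ?_ (hmono 0)
    rw [Ideal.span_singleton_eq_bot.2 rfl, bot_sup_eq]
    refine le_antisymm ?_ hIle
    interval_cases c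
    · exact le_top.trans (by simpa using hc)
    · simpa using hc
  have hb := bound_of_not_monogenic hc2 hc (Or.inr hmono) he he'
  have hL' := ENat.toNat_le_toNat hL (length_quotient_ne_top _ _ hc)
  rw [ENat.toNat_natCast] at hL'
  have hLr : ((c - 1 : ℕ) : ℝ) ^ d ≤ ((Module.length S (S ⧸ I)).toNat : ℝ) := by
    exact_mod_cast hL'
  have he'0 : 0 ≤ e' := ge_of_tendsto' (show Tendsto _ atTop (𝓝 e') from he') fun N => by
    positivity
  have hpos : (0 : ℝ) < ((c - 1 : ℕ) : ℝ) ^ d := by
    have : (0 : ℝ) < ((c - 1 : ℕ) : ℝ) := by exact_mod_cast (by omega : 0 < c - 1)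
    positivity
  have := mul_le_mul_of_nonneg_right hLr he'0
  nlinarith

end Vale.Agent.P202
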