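import Mathlib

/-!
Flat local maps whose closed fibre has maximal ideal of square zero.
-/

namespace Vale.Agent.P202

open IsLocalRing Filter Topology
open scoped TensorProduct

variable {R S : Type*} [CommRing R] [CommRing S] [IsLocalRing R] [IsLocalRing S]
  [IsNoetherianRing R] [Algebra R S] [IsLocalHom (algebraMap R S)] [Module.Flat R S]

/-- Minimal generators of the maximal ideal. -/
theorem exists_minimal_generators :
    ∃ a : Finset R, Ideal.span (a : Set R) = maximalIdeal R ∧
      ∀ c : R → R, ∑ i ∈ a, c i * i = 0 → ∀ i ∈ a, c i ∈ maximalIdeal R := by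
  classical
  obtain ⟨b, hb⟩ := (IsNoetherian.noetherian (maximalIdeal R) : (maximalIdeal R).FG)
  have hex : ∃ n, ∃ a : Finset R, a.card = n ∧ Ideal.span (a : Set R) = maximalIdeal R :=
    ⟨_, b, rfl, hb⟩
  obtain ⟨a, ha, has⟩ := Nat.find_spec hex
  refine ⟨a, has, fun c hc i hi => ?_⟩
  by_contra hu
  have hunit : IsUnit (c i) := IsLocalRing.notMem_maximalIdeal.1 hu
  obtain ⟨v, hv⟩ := hunit.exists_left_inv
  have hmem : i ∈ Ideal.span ((a.erase i : Finset R) : Set R) := by
    have h1 : i = -(v * ∑ j ∈ a.erase i, c j * j) := by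
      rw [← Finset.add_sum_erase _ _ hi] at hc
      have h2 : c i * i = -∑ j ∈ a.erase i, c j * j := eq_neg_of_add_eq_zero_left hc
      rw [← mul_neg, ← h2, ← mul_assoc, hv, one_mul]
    have h3 : -(v * ∑ j ∈ a.erase i, c j * j) ∈ Ideal.span ((a.erase i : Finset R) : Set R) :=
      neg_mem (Ideal.mul_mem_left _ _ (sum_mem fun j hj =>
        Ideal.mul_mem_left _ _ (Ideal.subset_span hj)))
    rwa [← h1] at h3
  have hspan : Ideal.span ((a.erase i : Finset R) : Set R) = maximalIdeal R := by
    refine le_antisymm ?_ ?_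
    · rw [← has]; exact Ideal.span_mono (by simp)
    · rw [← has, Ideal.span_le]
      intro j hj
      by_cases hji : j = i
      · subst hji; exact hmem
      · exact Ideal.subset_span (Finset.mem_erase.2 ⟨hji, hj⟩)
  have := Nat.find_le (h := hex) ⟨a.erase i, rfl, hspan⟩
  have := Finset.card_erase_lt_of_mem hi
  omega

omit [IsLocalHom (algebraMap R S)] [IsLocalRing S] [IsNoetherianRing R] in
/-- A relation between minimal generators has all coefficients in `mS`. -/
theorem coeff_mem_of_relation (a : Finset R)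
    (ha : ∀ c : R → R, ∑ i ∈ a, c i * i = 0 → ∀ i ∈ a, c i ∈ maximalIdeal R) (u : R → S)
    (h : ∑ i ∈ a, algebraMap R S i * u i = 0) :
    ∀ i ∈ a, u i ∈ (maximalIdeal R).map (algebraMap R S) := by
  classical
  have h' : ∑ i : a, (i : R) • u i = 0 := by
    rw [Finset.sum_coe_sort a (fun i => i • u i)]
    simpa [Algebra.smul_def] using h
  obtain ⟨k, b, y, hy, hb⟩ := Module.Flat.isTrivialRelation_of_sum_smul_eq_zero
    (R := R) (M := S) (f := fun i : a => (i : R)) (x := fun i : a => u i) h'
  intro i hi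
  have h2 := hy ⟨i, hi⟩
  simp only at h2
  rw [h2]
  refine sum_mem fun j _ => ?_
  rw [Algebra.smul_def]
  refine Ideal.mul_mem_right _ _ (Ideal.mem_map_of_mem _ ?_)
  let c : R → R := fun r => if hr : r ∈ a then b ⟨r, hr⟩ j else 0
  have hc : ∑ r ∈ a, c r * r = 0 := by
    rw [← hb j, ← Finset.sum_coe_sort a (fun r => c r * r)]
    exact Finset.sum_congr rfl fun r _ => by simp [c, r.2, mul_comm]
  simpa [c, hi] using ha c hc i hi

/-- If the fibre has maximal ideal of square zero, not nonzero principal, then `n ^ 2 ≤ mS * n`. -/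
theorem sq_le_mul (h2 : maximalIdeal S ^ 2 ≤ (maximalIdeal R).map (algebraMap R S))
    (hg : maximalIdeal S = (maximalIdeal R).map (algebraMap R S) ∨ ∀ z : S,
      maximalIdeal S ≠ Ideal.span {z} ⊔ (maximalIdeal R).map (algebraMap R S)) :
    maximalIdeal S ^ 2 ≤ (maximalIdeal R).map (algebraMap R S) * maximalIdeal S := by
  classical
  rcases hg with hg | hg
  · rw [pow_two, ← hg]
  obtain ⟨a, has, ha⟩ := exists_minimal_generators (R := R)
  have hJ : ∀ p ∈ (maximalIdeal R).map (algebraMap R S),
      ∃ s : R → S, ∑ i ∈ a, algebraMap R S i * s i = p := by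
    intro p hp
    rw [← has, Ideal.map_span] at hp
    induction hp using Submodule.span_induction with
    | mem x hx =>
      obtain ⟨i, hi, rfl⟩ := hx
      refine ⟨fun j => if j = i then 1 else 0, ?_⟩
      rw [Finset.sum_eq_single i (fun j _ hj => by simp [hj]) (fun h => absurd hi h)]
      simp
    | zero => exact ⟨0, by simp⟩
    | add x y _ _ hx hy =>
      obtain ⟨s, hs⟩ := hx; obtain ⟨t, ht⟩ := hy
      exact ⟨s + t, by simp [mul_add, Finset.sum_add_distrib, hs, ht]⟩
    | smul c x _ hx =>
      obtain ⟨s, hs⟩ := hx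
      exact ⟨fun i => c * s i, by
        rw [smul_eq_mul, ← hs, Finset.mul_sum]; exact Finset.sum_congr rfl fun i _ => by ring⟩
  rw [pow_two, Ideal.mul_le]
  intro y hy z hz
  obtain ⟨s, hs⟩ := hJ (y * z) (h2 (by rw [pow_two]; exact Ideal.mul_mem_mul hy hz))
  by_cases hall : ∀ i ∈ a, s i ∈ maximalIdeal S
  · rw [← hs]
    refine sum_mem fun i hi => Ideal.mul_mem_mul (Ideal.mem_map_of_mem _ ?_) (hall i hi)
    rw [← has]; exact Ideal.subset_span hi
  exfalso
  push Not at hall
  obtain ⟨i, hi, hsi⟩ := hall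
  obtain ⟨v, hv⟩ := (IsLocalRing.notMem_maximalIdeal.1 hsi).exists_left_inv
  refine hg z (le_antisymm (fun x hx => ?_) ?_)
  · obtain ⟨t, ht⟩ := hJ (x * y) (h2 (by rw [pow_two]; exact Ideal.mul_mem_mul hx hy))
    have hrel : ∑ j ∈ a, algebraMap R S j * (x * s j - z * t j) = 0 := by
      simp only [mul_sub, Finset.sum_sub_distrib]
      have e1 : ∑ j ∈ a, algebraMap R S j * (x * s j) = x * (y * z) := by
        rw [← hs, Finset.mul_sum]; exact Finset.sum_congr rfl fun j _ => by ring
      have e2 : ∑ j ∈ a, algebraMap R S j * (z * t j) = z * (x * y) := by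
        rw [← ht, Finset.mul_sum]; exact Finset.sum_congr rfl fun j _ => by ring
      rw [e1, e2]; ring
    have h3 := coeff_mem_of_relation a ha _ hrel i hi
    have e : x = v * t i * z + v * (x * s i - z * t i) := by
      linear_combination (-x) * hv
    rw [e]
    exact Submodule.add_mem_sup (Ideal.mem_span_singleton'.2 ⟨_, rfl⟩) (Ideal.mul_mem_left _ _ h3)
  · refine sup_le ((Ideal.span_singleton_le_iff_mem _).2 hz) ?_
    exact IsLocalRing.le_maximalIdeal (IsLocalRing.map_maximalIdeal_lt_top (algebraMap R S)).ne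

end Vale.Agent.P202
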